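import Mathlib

/-!
# P307: abstract elementary classes in a vocabulary of unary predicates
-/

universe u

open Cardinal hiding univ
open Set

namespace Vale.Agent.P307

/-- A structure in the vocabulary of unary predicates indexed by `I`. -/
structure Str (I : Type u) : Type (u + 1) where
  carrier : Type u
  sat : carrier → I → Prop

namespace Str

variable {I : Type u}

/-- The substructure on a set. -/
abbrev restrict (M : Str I) (s : Set M.carrier) : Str I := ⟨s, fun x => M.sat x⟩

/-- An isomorphism: a bijection preserving every predicate. -/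
structure Iso (M N : Str I) where
  toEquiv : M.carrier ≃ N.carrier
  sat_eq : ∀ x, N.sat (toEquiv x) = M.sat x

end Str

/-- An abstract elementary class in this vocabulary: `mem M` says that `M` is in the class and
`le M s` that the substructure on `s` is a `≤_K`-substructure of `M`. -/
structure AEC (I : Type u) where
  mem : Str I → Prop
  le : ∀ M : Str I, Set M.carrier → Prop
  mem_iso : ∀ {M N : Str I} (_ : M.Iso N), mem M → mem N
  le_iso : ∀ {M N : Str I} (e : M.Iso N) {s : Set M.carrier}, le M s → le N (e.toEquiv '' s)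
  mem_of_le : ∀ {M : Str I} {s : Set M.carrier}, le M s → mem (M.restrict s) ∧ mem M
  le_refl : ∀ {M : Str I}, mem M → le M univ
  le_trans : ∀ {M : Str I} {s : Set M.carrier} {t : Set (M.restrict s).carrier},
    le M s → le (M.restrict s) t → le M (Subtype.val '' t)
  coherence : ∀ {M : Str I} {s t : Set M.carrier}, le M s → le M t → s ⊆ t →
    le (M.restrict t) (Subtype.val ⁻¹' s)
  chain : ∀ (M : Str I) (ι : Type u) [LinearOrder ι] [WellFoundedLT ι] [Nonempty ι]
    (s : ι → Set M.carrier), Monotone s →
    (∀ i j, i ≤ j → le (M.restrict (s j)) (Subtype.val ⁻¹' s i)) → (⋃ i, s i) = univ →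
      mem M ∧ ∀ i, le M (s i)
  chain_le : ∀ (M : Str I) (ι : Type u) [LinearOrder ι] [WellFoundedLT ι] [Nonempty ι]
    (s : ι → Set M.carrier), Monotone s →
    (∀ i j, i ≤ j → le (M.restrict (s j)) (Subtype.val ⁻¹' s i)) → (∀ i, le M (s i)) →
      le M (⋃ i, s i)

namespace AEC

variable {I : Type u}

/-- The Löwenheim–Skolem property at the cardinal `ℓ`. -/
def HasLS (K : AEC I) (ℓ : Cardinal.{u}) : Prop :=
  ∀ M : Str I, K.mem M → ∀ A : Set M.carrier, ∃ s, A ⊆ s ∧ K.le M s ∧ #s ≤ #A + ℓ

/-- `K` has a model of cardinality `κ` and any two are isomorphic. -/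
def Categorical (K : AEC I) (κ : Cardinal.{u}) : Prop :=
  (∃ M, K.mem M ∧ #M.carrier = κ) ∧
    ∀ M N, K.mem M → K.mem N → #M.carrier = κ → #N.carrier = κ → Nonempty (M.Iso N)

end AEC

end Vale.Agent.P307
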