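import Vale.Agent.P307.Defs

/-!
# P307: directed unions in an abstract elementary class
-/

universe u

open Cardinal hiding univ
open Set

namespace Vale.Agent.P307.AEC

variable {I : Type u} (K : AEC I)

/-- The substructure on `A` is in the class. -/
def MemIn (M : Str I) (A : Set M.carrier) : Prop := K.mem (M.restrict A)

/-- The substructure on `A` is a `≤_K`-substructure of that on `B`. -/
def Rel (M : Str I) (A B : Set M.carrier) : Prop :=
  A ⊆ B ∧ K.le (M.restrict B) (Subtype.val ⁻¹' A)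

variable {M N : Str I}

/-- The restriction of an embedding, as an isomorphism of substructures. -/
noncomputable def imageIso (f : M.carrier → N.carrier) (B : Set M.carrier)
    (hf : InjOn f B) (hs : ∀ x ∈ B, N.sat (f x) = M.sat x) :
    (M.restrict B).Iso (N.restrict (f '' B)) where
  toEquiv := Equiv.Set.imageOfInjOn f B hf
  sat_eq := fun x => hs x.1 x.2

theorem memIn_image {f : M.carrier → N.carrier} {B : Set M.carrier} (hf : InjOn f B)
    (hs : ∀ x ∈ B, N.sat (f x) = M.sat x) (h : K.MemIn M B) : K.MemIn N (f '' B) :=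
  K.mem_iso (imageIso f B hf hs) h

theorem rel_image {f : M.carrier → N.carrier} {A B : Set M.carrier} (hf : InjOn f B)
    (hs : ∀ x ∈ B, N.sat (f x) = M.sat x) (h : K.Rel M A B) : K.Rel N (f '' A) (f '' B) := by
  refine ⟨image_mono h.1, ?_⟩
  convert K.le_iso (imageIso f B hf hs) h.2 using 1
  ext ⟨y, hy⟩
  constructor
  · rintro ⟨x, hx, rfl⟩
    exact ⟨⟨x, h.1 hx⟩, hx, Subtype.ext rfl⟩
  · rintro ⟨⟨x, hxB⟩, hx, he⟩
    exact ⟨x, hx, congrArg Subtype.val he⟩

/-- A structure seen as its substructure on `univ`. -/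
def univIso (M : Str I) : (M.restrict univ).Iso M where
  toEquiv := Equiv.Set.univ M.carrier
  sat_eq := fun _ => rfl

/-- The inverse of an isomorphism. -/
def symmIso {M N : Str I} (e : M.Iso N) : N.Iso M where
  toEquiv := e.toEquiv.symm
  sat_eq := fun x => by rw [← e.sat_eq (e.toEquiv.symm x), Equiv.apply_symm_apply]

theorem memIn_univ_iff : K.MemIn M univ ↔ K.mem M :=
  ⟨K.mem_iso (univIso M), K.mem_iso (symmIso (univIso M))⟩

theorem rel_univ_iff {A : Set M.carrier} : K.Rel M A univ ↔ K.le M A := by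
  constructor
  · rintro ⟨-, h⟩
    convert K.le_iso (univIso M) h using 1
    ext x
    exact ⟨fun hx => ⟨⟨x, trivial⟩, hx, rfl⟩, fun ⟨y, hy, he⟩ => he ▸ hy⟩
  · intro h
    refine ⟨subset_univ _, ?_⟩
    convert K.le_iso (symmIso (univIso M)) h using 1
    ext ⟨x, hx⟩
    exact ⟨fun h' => ⟨x, h', rfl⟩, fun ⟨y, hy, he⟩ => by
      have : y = x := congrArg Subtype.val he
      exact this ▸ hy⟩

theorem rel_of_le_le {s t : Set M.carrier} (hs : K.le M s) (ht : K.le M t) (hst : s ⊆ t) :
    K.Rel M s t :=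
  ⟨hst, K.coherence hs ht hst⟩

theorem rel_trans {A B C : Set M.carrier} (h₁ : K.Rel M A B) (h₂ : K.Rel M B C) :
    K.Rel M A C := by
  refine ⟨h₁.1.trans h₂.1, ?_⟩
  set P : Str I := M.restrict C
  set A' : Set P.carrier := Subtype.val ⁻¹' A
  set B' : Set P.carrier := Subtype.val ⁻¹' B
  have hle : K.le P B' := h₂.2
  have hsub : A' ⊆ B' := preimage_mono h₁.1
  -- move `A ≤ B` inside `M.restrict C`
  have hAB : K.le (P.restrict B') (Subtype.val ⁻¹' A') := by
    let e : (M.restrict B).Iso (P.restrict B') :=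
      { toEquiv :=
          { toFun := fun x => ⟨⟨x.1, h₂.1 x.2⟩, x.2⟩
            invFun := fun x => ⟨x.1.1, x.2⟩
            left_inv := fun _ => rfl
            right_inv := fun _ => rfl }
        sat_eq := fun _ => rfl }
    convert K.le_iso e h₁.2 using 1
    ext x
    exact ⟨fun hx => ⟨⟨x.1.1, x.2⟩, hx, rfl⟩, fun ⟨y, hy, he⟩ => he ▸ hy⟩
  convert K.le_trans hle hAB using 1
  rw [Subtype.image_preimage_coe]
  exact (inter_eq_right.2 hsub).symm

/-- Chain axioms inside an ambient structure. -/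
theorem rel_chain {ι : Type u} [LinearOrder ι] [WellFoundedLT ι] [Nonempty ι]
    {s : ι → Set M.carrier} (hmono : Monotone s) (h : ∀ i j, i ≤ j → K.Rel M (s i) (s j)) :
    K.MemIn M (⋃ i, s i) ∧ (∀ i, K.Rel M (s i) (⋃ i, s i)) ∧
      ∀ V, (∀ i, K.Rel M (s i) V) → K.Rel M (⋃ i, s i) V := by
  have key : ∀ V : Set M.carrier, (∀ i, s i ⊆ V) →
      Monotone (fun i => (Subtype.val ⁻¹' s i : Set (M.restrict V).carrier)) ∧
      ∀ i j, i ≤ j → K.le ((M.restrict V).restrict (Subtype.val ⁻¹' s j))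
        (Subtype.val ⁻¹' (Subtype.val ⁻¹' s i : Set (M.restrict V).carrier)) := by
    intro V hV
    refine ⟨fun i j hij => preimage_mono (hmono hij), fun i j hij => ?_⟩
    let e : (M.restrict (s j)).Iso ((M.restrict V).restrict (Subtype.val ⁻¹' s j)) :=
      { toEquiv :=
          { toFun := fun x => ⟨⟨x.1, hV j x.2⟩, x.2⟩
            invFun := fun x => ⟨x.1.1, x.2⟩
            left_inv := fun _ => rfl
            right_inv := fun _ => rfl }
        sat_eq := fun _ => rfl }
    convert K.le_iso e (h i j hij).2 using 1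
    ext x
    exact ⟨fun hx => ⟨⟨x.1.1, x.2⟩, hx, rfl⟩, fun ⟨y, hy, he⟩ => he ▸ hy⟩
  set U := ⋃ i, s i with hU
  obtain ⟨hm, hs⟩ := key U fun i => subset_iUnion s i
  obtain ⟨hmem, hle⟩ := K.chain (M.restrict U) ι _ hm hs (by
    rw [← preimage_iUnion, ← hU, Subtype.coe_preimage_self])
  refine ⟨hmem, fun i => ⟨subset_iUnion s i, hle i⟩, fun V hV => ?_⟩
  obtain ⟨hm', hs'⟩ := key V fun i => (hV i).1
  refine ⟨iUnion_subset fun i => (hV i).1, ?_⟩
  have := K.chain_le (M.restrict V) ι _ hm' hs' fun i => (hV i).2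
  rwa [← preimage_iUnion] at this

/-- What a directed system needs to satisfy. -/
def Good (M : Str I) {ι : Type u} (D : ι → Set M.carrier) : Prop :=
  K.MemIn M (⋃ i, D i) ∧ (∀ i, K.Rel M (D i) (⋃ i, D i)) ∧
    ∀ V, (∀ i, K.Rel M (D i) V) → K.Rel M (⋃ i, D i) V

theorem memIn_of_rel {A B : Set M.carrier} (h : K.Rel M A B) : K.MemIn M B :=
  (K.mem_of_le h.2).2

theorem good_countable {ι : Type u} [Countable ι] [Nonempty ι] (D : ι → Set M.carrier)
    (hdir : Directed (· ⊆ ·) D) (hrel : ∀ i j, D i ⊆ D j → K.Rel M (D i) (D j)) :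
    K.Good M D := by
  haveI : Encodable ι := Encodable.ofCountable ι
  haveI : Inhabited ι := Classical.inhabited_of_nonempty inferInstance
  set a : ℕ → ι := hdir.sequence D
  let s : ULift.{u} ℕ → Set M.carrier := fun n => D (a n.down)
  have hm : Monotone s := fun m n hmn =>
    monotone_nat_of_le_succ (f := fun n => D (a n)) (fun n => hdir.sequence_mono_nat n) hmn
  have : WellFoundedLT (ULift.{u} ℕ) := ⟨InvImage.wf ULift.down wellFounded_lt⟩
  obtain ⟨h1, h2, h3⟩ := K.rel_chain hm fun m n hmn => hrel _ _ (hm hmn)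
  have hU : (⋃ n, s n) = ⋃ i, D i := by
    refine subset_antisymm (iUnion_subset fun n => subset_iUnion D _) (iUnion_subset fun i => ?_)
    exact (hdir.rel_sequence i).trans (subset_iUnion s ⟨Encodable.encode i + 1⟩)
  refine ⟨hU ▸ h1, fun i => ?_, fun V hV => hU ▸ h3 V fun n => hV _⟩
  exact hU ▸ K.rel_trans (hrel i _ (hdir.rel_sequence i)) (h2 ⟨Encodable.encode i + 1⟩)

/-- The stages of closing an initial segment under a binary map. -/
def closeStage {ι : Type u} [Preorder ι] (f : ι → ι → ι) (j : ι) : ℕ → Set ι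
  | 0 => Iic j
  | n + 1 => closeStage f j n ∪ image2 f (closeStage f j n) (closeStage f j n)

/-- An increasing family of small sets covering a well order and closed under a binary map. -/
theorem exists_closed_family {ι : Type u} [LinearOrder ι] [WellFoundedLT ι] (f : ι → ι → ι)
    (hord : (#ι).ord = Ordinal.type ((· < ·) : ι → ι → Prop)) (hι : ℵ₀ < #ι) :
    ∃ T : ι → Set ι, (∀ i j, i ≤ j → T i ⊆ T j) ∧ (∀ j, j ∈ T j) ∧
      (∀ j, ∀ x ∈ T j, ∀ y ∈ T j, f x y ∈ T j) ∧ ∀ j, #(T j) < #ι := by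
  have hmono : ∀ j, Monotone (closeStage f j) := fun j =>
    monotone_nat_of_le_succ fun n => subset_union_left
  refine ⟨fun j => ⋃ n : ULift.{u} ℕ, closeStage f j n.down,
    fun i j hij => iUnion_mono fun n => ?_,
    fun j => mem_iUnion.2 ⟨⟨0⟩, show j ≤ j from le_rfl⟩, fun j x hx y hy => ?_, fun j => ?_⟩
  · induction n.down with
    | zero => exact Iic_subset_Iic.2 hij
    | succ n ihn => exact union_subset_union ihn (image2_subset ihn ihn)
  · obtain ⟨⟨m⟩, hm⟩ := mem_iUnion.1 hx
    obtain ⟨⟨n⟩, hn⟩ := mem_iUnion.1 hy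
    exact mem_iUnion.2 ⟨⟨max m n + 1⟩,
      Or.inr ⟨x, hmono j (le_max_left m n) hm, y, hmono j (le_max_right m n) hn, rfl⟩⟩
  · set d := max #(Iic j) ℵ₀ with hd'
    have hd : ℵ₀ ≤ d := le_max_right _ _
    have hC : ∀ n, #(closeStage f j n) ≤ d := fun n => by
      induction n with
      | zero => exact le_max_left _ _
      | succ n ihn =>
        refine (mk_union_le (closeStage f j n) _).trans ?_
        refine (add_le_add ihn (mk_image2_le.trans (mul_le_mul' ihn ihn))).trans ?_
        rw [mul_eq_self hd, add_eq_self hd]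
    have hsup : (⨆ n : ULift.{u} ℕ, #(closeStage f j n.down)) ≤ d :=
      ciSup_le' fun n => hC n.down
    have hnat : #(ULift.{u} ℕ) ≤ d := by
      rw [mk_uLift, mk_nat, lift_aleph0]
      exact hd
    calc _ ≤ #(ULift.{u} ℕ) * ⨆ n : ULift.{u} ℕ, #(closeStage f j n.down) := mk_iUnion_le _
      _ ≤ d * d := mul_le_mul' hnat hsup
      _ = d := mul_eq_self hd
      _ < #ι := max_lt (mk_Iic_lt j hord hι.le) hι

/-- Directed unions of `≤_K`-systems are in the class, and behave as unions of chains. -/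
theorem good_directed : ∀ (c : Cardinal.{u}) (ι : Type u), #ι = c → Nonempty ι →
    ∀ D : ι → Set M.carrier, Directed (· ⊆ ·) D →
      (∀ i j, D i ⊆ D j → K.Rel M (D i) (D j)) → K.Good M D := by
  intro c
  induction c using WellFoundedLT.induction with
  | ind c ih => ?_
  intro ι hc hne D hdir hrel
  by_cases hcount : c ≤ ℵ₀
  · have : Countable ι := mk_le_aleph0_iff.1 (hc ▸ hcount)
    exact K.good_countable D hdir hrel
  have hc₀ : ℵ₀ < c := not_le.1 hcount
  have : Infinite ι := infinite_iff.2 (hc ▸ hc₀.le)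
  obtain ⟨lin, wf, hord⟩ := exists_ord_eq_type_lt ι
  letI := lin
  choose f hf using hdir
  obtain ⟨T, hTle, hTmem, hTf, hTcard⟩ := exists_closed_family f hord (hc ▸ hc₀)
  have hgood : ∀ j, K.Good M (fun i : T j => D i) := fun j =>
    ih _ (hc ▸ hTcard j) (T j) rfl ⟨⟨j, hTmem j⟩⟩ _
      (fun x y => ⟨⟨f x y, hTf j x x.2 y y.2⟩, hf x y⟩)
      (fun _ _ => hrel _ _)
  let s : ι → Set M.carrier := fun j => ⋃ i : T j, D i
  have hs : Monotone s := fun i j hij => by
    exact iUnion_subset fun k => subset_iUnion (fun i : T j => D i) ⟨k, hTle i j hij k.2⟩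
  obtain ⟨h1, h2, h3⟩ := K.rel_chain hs fun i j hij =>
    (hgood i).2.2 _ fun k => (hgood j).2.1 ⟨k, hTle i j hij k.2⟩
  have hU : (⋃ j, s j) = ⋃ i, D i :=
    subset_antisymm (iUnion_subset fun j => iUnion_subset fun k => subset_iUnion D k)
      (iUnion_subset fun i => (subset_iUnion (fun k : T i => D k) ⟨i, hTmem i⟩).trans
        (subset_iUnion s i))
  refine ⟨hU ▸ h1, fun i => ?_, fun V hV => hU ▸ h3 V fun j => (hgood j).2.2 V fun k => hV k⟩
  exact hU ▸ K.rel_trans ((hgood i).2.1 ⟨i, hTmem i⟩) (h2 i)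

end Vale.Agent.P307.AEC
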