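import Vale.Agent.P307.Pump

/-!
# P307: eventual categoricity for classes in a vocabulary of unary predicates
-/

universe u

open Cardinal hiding univ
open Set

namespace Vale.Agent.P307

variable {I : Type u}

theorem Categorical.transfer {lam : Cardinal.{u}} (hlam : ℵ₀ ≤ lam) (hI : #I ≤ lam)
    (K : AEC I) (hLS : K.HasLS lam) {κ : Cardinal.{u}} (hκ : 2 ^ lam < κ)
    (hcat : K.Categorical κ) {κ' : Cardinal.{u}} (hκ' : 2 ^ lam < κ') : K.Categorical κ' := by
  classical
  set Λ := (2 : Cardinal.{u}) ^ lam with hΛdef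
  have hlamΛ : lam < Λ := cantor lam
  have hΛ : ℵ₀ ≤ Λ := hlam.trans hlamΛ.le
  have hCol : #(I → Prop) ≤ Λ := by
    exact (mk_set (α := I)).trans_le (power_le_power_left two_ne_zero hI)
  -- a sum of at most `2 ^ lam` cardinals below `m`
  have hsum : ∀ (n : (I → Prop) → Cardinal.{u}) (m : Cardinal.{u}), Λ ≤ m → (∀ c, n c ≤ m) →
      sum n ≤ m := fun n m hm hn =>
    (sum_le_sum n (fun _ => m) hn).trans ((sum_const' _ m).trans_le
      ((mul_le_mul' (hCol.trans hm) le_rfl).trans (mul_eq_self (hΛ.trans hm)).le))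
  have hbig : ∀ M : Str I, Λ < #M.carrier → ∃ c, lam < M.count c := fun M hM => by
    by_contra! h
    exact not_le.2 hM (M.mk_eq_sum.trans_le (hsum _ Λ le_rfl fun c => (h c).trans hlamΛ.le))
  -- blow up or shrink the big classes
  let re : Str I → ((I → Prop) → Cardinal.{u}) → Str I := fun M n =>
    Str.ofCounts fun c => if lam < M.count c then n c else M.count c
  have re_count : ∀ M n c, (re M n).count c = if lam < M.count c then n c else M.count c :=
    fun M n c => Str.count_ofCounts _ c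
  have re_mem : ∀ M n, K.mem M → (∀ c, lam < n c) → K.mem (re M n) := fun M n hM hn =>
    mem_of_sameProfile K hlam hLS hM fun c =>
      ⟨fun h => by rw [re_count, if_neg (not_lt.2 h)],
        fun h => by rw [re_count, if_pos h]; exact hn c⟩
  have re_card : ∀ M n m, Λ < m → Λ < #M.carrier → (∀ c, n c ≤ m) →
      (∃ c, lam < M.count c ∧ n c = m) → #(re M n).carrier = m := fun M n m hm hM hn hex => by
    refine le_antisymm ((Str.mk_eq_sum _).trans_le (hsum _ m hm.le fun c => ?_)) ?_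
    · rw [re_count]
      split_ifs with h
      · exact hn c
      · exact (not_lt.1 h).trans (hlamΛ.le.trans hm.le)
    · obtain ⟨c, hc, hnc⟩ := hex
      rw [Str.mk_eq_sum]
      refine le_trans ?_ (le_sum _ c)
      rw [re_count, if_pos hc, hnc]
  obtain ⟨⟨M₀, hM₀, hM₀κ⟩, huniq⟩ := hcat
  have hκlam : lam < κ := hlamΛ.trans hκ
  have hκ'lam : lam < κ' := hlamΛ.trans hκ'
  -- any large model, resized to `κ`, is `M₀`
  have toM₀ : ∀ (M : Str I) (n : (I → Prop) → Cardinal.{u}), K.mem M → Λ < #M.carrier → (∀ c, lam < n c) → (∀ c, n c ≤ κ) →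
      (∃ c, lam < M.count c ∧ n c = κ) →
      ∀ c, M₀.count c = if lam < M.count c then n c else M.count c := fun M n hM hMc h1 h2 h3 c => by
    obtain ⟨e⟩ := huniq M₀ (re M n) hM₀ (re_mem M n hM h1) hM₀κ (re_card M n κ hκ hMc h2 h3)
    rw [Str.count_eq_of_iso e c, re_count]
  obtain ⟨c₀, hc₀⟩ := hbig M₀ (hM₀κ ▸ hκ)
  -- every large model has exactly one big class, that of `c₀`, and the profile of `M₀`
  have profile : ∀ M, K.mem M → Λ < #M.carrier →
      lam < M.count c₀ ∧ ∀ c, c ≠ c₀ → M.count c = M₀.count c ∧ M.count c ≤ lam := by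
    intro M hM hMc
    obtain ⟨d₀, hd₀⟩ := hbig M hMc
    have hA := toM₀ M (fun _ => κ) hM hMc (fun _ => hκlam) (fun _ => le_rfl) ⟨d₀, hd₀, rfl⟩
    have hsucc : Order.succ lam ≤ Λ := Order.succ_le_of_lt hlamΛ
    have only : ∀ d, lam < M.count d → ∀ c, lam < M.count c → c = d := by
      intro d hd c hc
      by_contra hne
      have hB := toM₀ M (fun x => if x = d then κ else Order.succ lam) hM hMc
        (fun x => by split_ifs; exacts [hκlam, Order.lt_succ lam])
        (fun x => by split_ifs; exacts [le_rfl, hsucc.trans hκ.le]) ⟨d, hd, if_pos rfl⟩ c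
      rw [hA c, if_pos hc, if_pos hc, if_neg hne] at hB
      exact (hsucc.trans_lt hκ).ne hB.symm
    have hd₀c₀ : d₀ = c₀ := by
      have h := hA c₀
      by_cases hc : lam < M.count c₀
      · exact (only d₀ hd₀ c₀ hc).symm
      · rw [if_neg hc] at h
        exact absurd (h ▸ hc₀) hc
    subst hd₀c₀
    refine ⟨hd₀, fun c hc => ?_⟩
    have hs : ¬ lam < M.count c := fun h => hc (only d₀ hd₀ c h)
    exact ⟨by rw [hA c, if_neg hs], not_lt.1 hs⟩
  refine ⟨⟨re M₀ fun _ => κ', re_mem M₀ _ hM₀ fun _ => hκ'lam,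
    re_card M₀ _ κ' hκ' (hM₀κ ▸ hκ) (fun _ => le_rfl) ⟨c₀, hc₀, rfl⟩⟩, ?_⟩
  intro M N hM hN hMc hNc
  have top : ∀ P, K.mem P → #P.carrier = κ' → P.count c₀ = κ' := fun P hP hPc => by
    obtain ⟨-, hs⟩ := profile P hP (hPc ▸ hκ')
    refine le_antisymm (hPc ▸ mk_subtype_le _) (not_lt.1 fun hlt => ?_)
    have : sum P.count ≤ max Λ (P.count c₀) := hsum _ _ (le_max_left _ _) fun c => by
      by_cases h : c = c₀
      · exact h ▸ le_max_right _ _
      · exact (hs c h).2.trans (hlamΛ.le.trans (le_max_left _ _))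
    rw [← Str.mk_eq_sum, hPc] at this
    exact not_lt.2 this (max_lt hκ' hlt)
  refine Str.nonempty_iso_of_count fun c => ?_
  by_cases hc : c = c₀
  · subst hc; rw [top M hM hMc, top N hN hNc]
  · rw [((profile M hM (hMc ▸ hκ')).2 c hc).1, ((profile N hN (hNc ▸ hκ')).2 c hc).1]

end Vale.Agent.P307
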