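import Vale.Agent.P307.Directed

/-!
# P307: colour classes larger than the Löwenheim–Skolem number can be resized
-/

universe u

open Cardinal hiding univ
open Set

namespace Vale.Agent.P307

variable {I : Type u}

namespace Str

/-- The number of points satisfying exactly the predicates in `c`. -/
def count (M : Str I) (c : I → Prop) : Cardinal.{u} := #{x : M.carrier // M.sat x = c}

/-- The structure with `n c` points of colour `c`. -/
noncomputable def ofCounts (n : (I → Prop) → Cardinal.{u}) : Str I :=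
  ⟨Σ c, (n c).out, Sigma.fst⟩

theorem count_ofCounts (n : (I → Prop) → Cardinal.{u}) (c : I → Prop) :
    (ofCounts n).count c = n c :=
  (mk_congr (Equiv.sigmaSubtype c)).trans (mk_out _)

theorem mk_ofCounts (n : (I → Prop) → Cardinal.{u}) : #(ofCounts n).carrier = sum n := by
  show #(Σ c, (n c).out) = _
  rw [mk_sigma]
  simp [mk_out]

theorem mk_eq_sum (M : Str I) : #M.carrier = sum M.count := by
  rw [← mk_congr (Equiv.sigmaFiberEquiv M.sat), mk_sigma]
  rfl

theorem nonempty_iso_of_count {M N : Str I} (h : ∀ c, M.count c = N.count c) :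
    Nonempty (M.Iso N) := by
  let e := fun c => (Cardinal.eq.1 (h c)).some
  refine ⟨⟨(Equiv.sigmaFiberEquiv M.sat).symm.trans
    ((Equiv.sigmaCongrRight e).trans (Equiv.sigmaFiberEquiv N.sat)), fun x => ?_⟩⟩
  exact (e (M.sat x) ⟨x, rfl⟩).2

theorem count_eq_of_iso {M N : Str I} (e : M.Iso N) (c : I → Prop) : M.count c = N.count c :=
  mk_congr (e.toEquiv.subtypeEquiv fun x => by rw [e.sat_eq])

end Str

/-- `N` has the small colour classes of `M`, and is big where `M` is big. -/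
def SameProfile (ℓ : Cardinal.{u}) (M N : Str I) : Prop :=
  ∀ c, (M.count c ≤ ℓ → N.count c = M.count c) ∧ (ℓ < M.count c → ℓ < N.count c)

/-- A colour-preserving map equal to `g` on the colour classes of size at most `ℓ`. -/
def Pres (ℓ : Cardinal.{u}) {M N : Str I} (g φ : M.carrier → N.carrier) : Prop :=
  ∀ x, N.sat (φ x) = M.sat x ∧ (M.count (M.sat x) ≤ ℓ → φ x = g x)

variable {ℓ : Cardinal.{u}} {M N : Str I}

theorem exists_base_maps (hp : SameProfile ℓ M N) :
    ∃ (g : N.carrier → M.carrier) (h : M.carrier → N.carrier),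
      Pres ℓ g g ∧ Pres ℓ h h ∧ (∀ x, M.count (N.sat x) ≤ ℓ → h (g x) = x) ∧
        ∀ y, M.count (M.sat y) ≤ ℓ → g (h y) = y := by
  have key : ∀ c, ∃ (a : {x // N.sat x = c} → {y // M.sat y = c})
      (b : {y // M.sat y = c} → {x // N.sat x = c}),
      M.count c ≤ ℓ → (∀ x, b (a x) = x) ∧ ∀ y, a (b y) = y := by
    intro c
    by_cases hc : M.count c ≤ ℓ
    · obtain ⟨e⟩ := Cardinal.eq.1 ((hp c).1 hc)
      exact ⟨e, e.symm, fun _ => ⟨e.symm_apply_apply, e.apply_symm_apply⟩⟩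
    · have hM : Nonempty {y // M.sat y = c} :=
        mk_ne_zero_iff.1 ((zero_le).trans_lt (not_le.1 hc)).ne'
      have hN : Nonempty {x // N.sat x = c} :=
        mk_ne_zero_iff.1 ((zero_le).trans_lt ((hp c).2 (not_le.1 hc))).ne'
      exact ⟨fun _ => hM.some, fun _ => hN.some, fun h => absurd h hc⟩
  choose a b hab using key
  have ha : ∀ c x (h : N.sat x = c), (a (N.sat x) ⟨x, rfl⟩).1 = (a c ⟨x, h⟩).1 := by
    rintro c x rfl; rfl
  have hb : ∀ c y (h : M.sat y = c), (b (M.sat y) ⟨y, rfl⟩).1 = (b c ⟨y, h⟩).1 := by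
    rintro c y rfl; rfl
  refine ⟨fun x => (a _ ⟨x, rfl⟩).1, fun y => (b _ ⟨y, rfl⟩).1,
    fun x => ⟨(a _ _).2, fun _ => rfl⟩, fun y => ⟨(b _ _).2, fun _ => rfl⟩,
    fun x hx => ?_, fun y hy => ?_⟩
  · exact (hb _ _ (a (N.sat x) ⟨x, rfl⟩).2).trans
      (congrArg Subtype.val ((hab _ hx).1 ⟨x, rfl⟩))
  · exact (ha _ _ (b (M.sat y) ⟨y, rfl⟩).2).trans
      (congrArg Subtype.val ((hab _ hy).2 ⟨y, rfl⟩))

theorem SameProfile.small (hp : SameProfile ℓ M N) {c : I → Prop} :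
    N.count c ≤ ℓ ↔ M.count c ≤ ℓ :=
  ⟨fun h => le_of_not_gt fun h' => not_le.2 ((hp c).2 h') h, fun h => ((hp c).1 h).trans_le h⟩

theorem SameProfile.symm (hp : SameProfile ℓ M N) : SameProfile ℓ N M := fun c =>
  ⟨fun h => ((hp c).1 (hp.small.1 h)).symm, fun h => not_le.1 fun h' => not_le.2 h (hp.small.2 h')⟩

/-- A partial inverse extends injectively over a small set. -/
theorem exists_injOn_extend {g φ : N.carrier → M.carrier} {h : M.carrier → N.carrier}
    (hℓ : ℵ₀ ≤ ℓ) (hp : SameProfile ℓ M N) (hh : Pres ℓ h h)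
    (hgh : ∀ y, M.count (M.sat y) ≤ ℓ → g (h y) = y)
    (hhg : ∀ x, N.count (N.sat x) ≤ ℓ → h (g x) = x) (hφ : Pres ℓ g φ)
    {A : Set N.carrier} (hA : #A ≤ ℓ) (hφA : InjOn φ A)
    {t : Set M.carrier} (ht : #t ≤ ℓ) :
    ∃ ψ : M.carrier → N.carrier, Pres ℓ h ψ ∧ InjOn ψ t ∧ ∀ a ∈ A, ψ (φ a) = a := by
  classical
  have big : ∀ c, ℓ < M.count c →
      Nonempty ({y // y ∈ t ∧ M.sat y = c} ↪ {x // N.sat x = c ∧ x ∉ A}) := by
    intro c hc
    refine (Cardinal.le_def _ _).1 ?_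
    have h1 : #{y // y ∈ t ∧ M.sat y = c} ≤ ℓ :=
      (mk_subtype_mono fun _ h => h.1).trans ht
    refine h1.trans ?_
    by_contra hlt
    have hsplit : N.count c ≤ #{x // N.sat x = c ∧ x ∉ A} + #A := by
      refine (mk_le_mk_of_subset (s := {x | N.sat x = c}) (t := {x | N.sat x = c ∧ x ∉ A} ∪ A)
        fun x hx => ?_).trans (mk_union_le _ _)
      by_cases hxA : x ∈ A
      · exact Or.inr hxA
      · exact Or.inl ⟨hx, hxA⟩
    exact absurd (hsplit.trans ((add_le_add (le_of_not_ge hlt) hA).trans (add_eq_self hℓ).le))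
      (not_le.2 ((hp c).2 hc))
  let emb := fun c hc => (big c hc).some
  let ψ : M.carrier → N.carrier := fun y =>
    if hy : y ∈ φ '' A then hy.choose
    else if hyt : y ∈ t ∧ ℓ < M.count (M.sat y) then (emb _ hyt.2 ⟨y, hyt.1, rfl⟩).1
    else h y
  have hemb : ∀ y (hy : y ∉ φ '' A) (hyt : y ∈ t) (c) (hc : ℓ < M.count c) (hs : M.sat y = c),
      ψ y = (emb c hc ⟨y, hyt, hs⟩).1 := by
    intro y hy hyt c hc hs
    subst hs
    simp only [ψ, dif_neg hy, dif_pos (And.intro hyt hc)]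
  have hA' : ∀ y, y ∈ φ '' A → ψ y ∈ A ∧ φ (ψ y) = y := fun y hy => by
    simp only [ψ, dif_pos hy]
    exact hy.choose_spec
  have hsmall : ∀ y, M.count (M.sat y) ≤ ℓ → ψ y = h y ∨ y ∈ φ '' A := fun y hc => by
    by_cases hy : y ∈ φ '' A
    · exact Or.inr hy
    · left
      simp only [ψ, dif_neg hy, dif_neg (fun hyt : y ∈ t ∧ _ => not_le.2 hyt.2 hc)]
  have hsmallN : ∀ y, M.count (M.sat y) ≤ ℓ → N.count (M.sat y) ≤ ℓ := fun y hc =>
    ((hp _).1 hc).trans_le hc
  have hg : ∀ y, M.count (M.sat y) ≤ ℓ → g (ψ y) = y := fun y hc => by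
    rcases hsmall y hc with e | hy
    · rw [e, hgh y hc]
    · obtain ⟨-, e⟩ := hA' y hy
      have hs : N.sat (ψ y) = M.sat y := by rw [← (hφ (ψ y)).1, e]
      rw [← (hφ (ψ y)).2 (hs ▸ hsmallN y hc), e]
  have hsat : ∀ y, N.sat (ψ y) = M.sat y := fun y => by
    by_cases hy : y ∈ φ '' A
    · rw [← (hφ (ψ y)).1, (hA' y hy).2]
    · by_cases hyt : y ∈ t ∧ ℓ < M.count (M.sat y)
      · rw [hemb y hy hyt.1 _ hyt.2 rfl]
        exact (emb _ hyt.2 _).2.1
      · simp only [ψ, dif_neg hy, dif_neg hyt]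
        exact (hh y).1
  have hinv : ∀ a ∈ A, ψ (φ a) = a := fun a ha =>
    hφA (hA' _ ⟨a, ha, rfl⟩).1 ha (hA' _ ⟨a, ha, rfl⟩).2
  refine ⟨ψ, fun y => ⟨hsat y, fun hc => ?_⟩, fun y hy z hz e => ?_, hinv⟩
  · have hc' : N.count (N.sat (ψ y)) ≤ ℓ := by rw [hsat y]; exact hsmallN y hc
    rw [← hhg (ψ y) hc', hg y hc]
  · have es : M.sat y = M.sat z := by rw [← hsat y, e, hsat z]
    by_cases hc : M.count (M.sat y) ≤ ℓ
    · rw [← hg y hc, e, hg z (es ▸ hc)]
    · by_cases hya : y ∈ φ '' A <;> by_cases hza : z ∈ φ '' A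
      · rw [← (hA' y hya).2, e, (hA' z hza).2]
      · have := (emb _ (not_le.1 hc) ⟨z, hz, es.symm⟩).2.2
        rw [← hemb z hza hz _ (not_le.1 hc) es.symm, ← e] at this
        exact absurd (hA' y hya).1 this
      · have := (emb _ (not_le.1 hc) ⟨y, hy, rfl⟩).2.2
        rw [← hemb y hya hy _ (not_le.1 hc) rfl, e] at this
        exact absurd (hA' z hza).1 this
      · rw [hemb y hya hy _ (not_le.1 hc) rfl, hemb z hza hz _ (not_le.1 hc) es.symm] at e
        exact congrArg Subtype.val ((emb _ (not_le.1 hc)).injective (Subtype.ext e))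

/-- Small colour-preserving copies of a `≤_K`-submodel are `≤_K`-submodels. -/
theorem le_image_of_pres (K : AEC I) (hℓ : ℵ₀ ≤ ℓ) (hp : SameProfile ℓ M N)
    {g φ ψ : N.carrier → M.carrier} (hφ : Pres ℓ g φ) (hψ : Pres ℓ g ψ) {A : Set N.carrier}
    (hA : #A ≤ ℓ) (hφA : InjOn φ A) (hψA : InjOn ψ A) (h : K.le M (φ '' A)) :
    K.le M (ψ '' A) := by
  classical
  have key : ∀ c, ∃ e : {y // M.sat y = c} ≃ {y // M.sat y = c},
      ∀ a (ha : a ∈ A) (hc : M.sat (φ a) = c), (e ⟨φ a, hc⟩).1 = ψ a := by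
    intro c
    by_cases hsmall : M.count c ≤ ℓ
    · refine ⟨Equiv.refl _, fun a ha hc => ?_⟩
      have hc' : N.count (N.sat a) ≤ ℓ := by
        rw [← (hφ a).1, hc]
        exact hp.small.2 hsmall
      exact ((hφ a).2 hc').trans ((hψ a).2 hc').symm
    · have : Infinite {y // M.sat y = c} :=
        infinite_iff.2 (hℓ.trans (not_le.1 hsmall).le)
      let B : Set A := {a | N.sat a.1 = c}
      let f : B → {y // M.sat y = c} := fun a => ⟨φ a.1.1, (hφ _).1.trans a.2⟩
      let f' : B → {y // M.sat y = c} := fun a => ⟨ψ a.1.1, (hψ _).1.trans a.2⟩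
      have hf : Function.Injective f := fun a b e =>
        Subtype.ext (Subtype.ext (hφA a.1.2 b.1.2 (congrArg Subtype.val e)))
      have hf' : Function.Injective f' := fun a b e =>
        Subtype.ext (Subtype.ext (hψA a.1.2 b.1.2 (congrArg Subtype.val e)))
      let i : range f ↪ {y // M.sat y = c} :=
        ⟨fun y => f' ((Equiv.ofInjective f hf).symm y),
          hf'.comp (Equiv.ofInjective f hf).symm.injective⟩
      have hlt : #(range f) < #{y // M.sat y = c} :=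
        ((mk_range_le.trans (mk_set_le B)).trans hA).trans_lt (not_le.1 hsmall)
      obtain ⟨e, he⟩ := extend_function_of_lt i hlt ⟨Equiv.refl _⟩
      refine ⟨e, fun a ha hc => ?_⟩
      have hb : (⟨a, ha⟩ : A) ∈ B := (hφ a).1.symm.trans hc
      have := he ⟨f ⟨⟨a, ha⟩, hb⟩, mem_range_self _⟩
      simp only [i, Function.Embedding.coeFn_mk, Equiv.ofInjective_symm_apply] at this
      exact congrArg Subtype.val this
  choose e he using key
  let π : M.Iso M :=
    { toEquiv := (Equiv.sigmaFiberEquiv M.sat).symm.trans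
        ((Equiv.sigmaCongrRight e).trans (Equiv.sigmaFiberEquiv M.sat))
      sat_eq := fun x => (e (M.sat x) ⟨x, rfl⟩).2 }
  convert K.le_iso π h using 1
  rw [image_image]
  exact image_congr fun a ha => (he (M.sat (φ a)) a ha rfl).symm

/-- Every structure with the profile of a model is a model. -/
theorem mem_of_sameProfile (K : AEC I) (hℓ : ℵ₀ ≤ ℓ) (hLS : K.HasLS ℓ) (hM : K.mem M)
    (hp : SameProfile ℓ M N) : K.mem N := by
  obtain ⟨g, h, hg, hh, hhg', hgh⟩ := exists_base_maps hp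
  have hhg : ∀ x, N.count (N.sat x) ≤ ℓ → h (g x) = x := fun x hx => hhg' x (hp.small.1 hx)
  let ι := {A : Set N.carrier // #A ≤ ℓ ∧
    ∃ φ, Pres ℓ g φ ∧ InjOn φ A ∧ K.le M (φ '' A)}
  -- every small set lies in a member of the system
  have cover : ∀ A : Set N.carrier, #A ≤ ℓ → ∃ B : ι, A ⊆ B.1 := fun A hA => by
    obtain ⟨φ, hφ, hφA, -⟩ :=
      exists_injOn_extend (g := h) (φ := h) hℓ hp.symm hg hhg hgh hh
        (A := (∅ : Set M.carrier)) (by simp) (injOn_empty _) (t := A) hA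
    obtain ⟨s, hAs, hs, hcard⟩ := hLS M hM (φ '' A)
    have hsℓ : #s ≤ ℓ :=
      hcard.trans ((add_le_add (mk_image_le.trans hA) le_rfl).trans (add_eq_self hℓ).le)
    obtain ⟨ψ, hψ, hψs, hinv⟩ := exists_injOn_extend hℓ hp hh hgh hhg hφ hA hφA (t := s) hsℓ
    obtain ⟨φ', hφ', hφ's, hinv'⟩ :=
      exists_injOn_extend hℓ hp.symm hg hhg hgh hψ hsℓ hψs (t := ψ '' s) (mk_image_le.trans hsℓ)
    refine ⟨⟨ψ '' s, mk_image_le.trans hsℓ, φ', hφ', hφ's, ?_⟩,
      fun a ha => ⟨φ a, hAs ⟨a, ha, rfl⟩, hinv a ha⟩⟩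
    rwa [image_image, image_congr hinv', image_id']
  have hdir : Directed (· ⊆ ·) fun A : ι => A.1 := fun A B => by
    obtain ⟨C, hC⟩ := cover (A.1 ∪ B.1)
      ((mk_union_le _ _).trans ((add_le_add A.2.1 B.2.1).trans (add_eq_self hℓ).le))
    exact ⟨C, subset_union_left.trans hC, subset_union_right.trans hC⟩
  have hrel : ∀ A B : ι, A.1 ⊆ B.1 → K.Rel N A.1 B.1 := by
    rintro ⟨A, hA, φ, hφ, hφA, hφle⟩ ⟨B, hB, ψ, hψ, hψB, hψle⟩ (hAB : A ⊆ B)
    -- an automorphism of `M` carrying `φ '' A` to `ψ '' A`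
    have auto : K.le M (ψ '' A) := le_image_of_pres K hℓ hp hφ hψ hA hφA (hψB.mono hAB) hφle
    have hr := K.rel_of_le_le auto hψle (image_mono hAB)
    obtain ⟨χ, hχ, -, hinv⟩ := exists_injOn_extend hℓ hp hh hgh hhg hψ hB hψB
      (t := (∅ : Set M.carrier)) (by simp)
    have hinj : InjOn χ (ψ '' B) := by
      rintro _ ⟨a, ha, rfl⟩ _ ⟨b, hb, rfl⟩ e
      rw [hinv a ha, hinv b hb] at e
      rw [e]
    have := K.rel_image hinj (fun x _ => (hχ x).1) hr
    rwa [image_image, image_image, image_congr hinv,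
      image_congr (fun a ha => hinv a (hAB ha)), image_id', image_id'] at this
  obtain ⟨A₀, -⟩ := cover ∅ (by simp)
  have hU : (⋃ A : ι, A.1) = Set.univ := eq_univ_of_forall fun x => by
    obtain ⟨A, hA⟩ := cover {x} (by rw [mk_singleton]; exact one_le_aleph0.trans hℓ)
    exact mem_iUnion.2 ⟨A, hA rfl⟩
  have := (K.good_directed _ ι rfl ⟨A₀⟩ _ hdir hrel).1
  rw [hU] at this
  exact K.memIn_univ_iff.1 this

end Vale.Agent.P307
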